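import Vale.Agent.P181.DG.Defs

set_option autoImplicit false

/-!
# P181, DG (D8): the counting part of the assembly
-/

namespace Vale.Agent.P181.DG8

open Vale.Agent.P181.DG

lemma mem_KT {w S : ℕ} (hS : 1 ≤ S) {k : Multiset ℕ} :
    k ∈ KT w S ↔ k.sum ≤ w ∧ ∀ x ∈ k, S ≤ x := by
  classical
  unfold KT
  rw [Finset.mem_biUnion]
  constructor
  · rintro ⟨u, hu, hk⟩
    rw [Finset.mem_filter, Finset.mem_image] at hk
    obtain ⟨⟨p, _, rfl⟩, h⟩ := hk
    rw [Finset.mem_range] at hu
    exact ⟨by rw [p.parts_sum]; omega, h⟩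
  · rintro ⟨h1, h2⟩
    refine ⟨k.sum, by rw [Finset.mem_range]; omega, ?_⟩
    rw [Finset.mem_filter, Finset.mem_image]
    refine ⟨⟨⟨k, fun {i} hi => ?_, rfl⟩, Finset.mem_univ _, rfl⟩, h2⟩
    have := h2 i hi
    omega

lemma card_KT {w S : ℕ} (hS : 1 ≤ S) {k : Multiset ℕ} (hk : k ∈ KT w S) :
    Multiset.card k * S ≤ w := by
  rw [mem_KT hS] at hk
  have h1 := Multiset.card_nsmul_le_sum (s := k) (a := S) hk.2
  rw [smul_eq_mul] at h1
  exact h1.trans hk.1

lemma tel {f : ℕ → ℕ} (h : ∀ t, f t ≤ f (t + 1)) {s t : ℕ} (hst : s ≤ t) :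
    f t = f s + ∑ u ∈ Finset.Ioc s t, (f u - f (u - 1)) := by
  induction t, hst using Nat.le_induction with
  | base => simp
  | succ t hst ih =>
    rw [Finset.sum_Ioc_succ_top hst]
    have h1 := h t
    have h2 : t + 1 - 1 = t := by omega
    rw [h2]
    omega

open scoped Classical in
lemma sum_pairs (K : Finset (Multiset ℕ)) (T : Finset ℕ) (P : Multiset ℕ × ℕ → Prop)
    (g : Multiset ℕ → ℕ → ℕ) :
    ∑ p ∈ (K ×ˢ T).filter P, g p.1 p.2 =
      ∑ k ∈ K, ∑ t ∈ T.filter (fun t => P (k, t)), g k t := by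
  rw [Finset.sum_filter, Finset.sum_product]
  apply Finset.sum_congr rfl
  intro k _
  rw [Finset.sum_filter]

section

variable {N : Multiset ℕ → ℕ → ℕ} {w S a b J : ℕ}

open scoped Classical in
/-- the lower side -/
lemma core_low (hN : ∀ k t, N k t ≤ N k (t + 1))
    (hc : ∀ k ∈ KT w S, a + 1 + 3 * Multiset.card k ≤ b ∧ Multiset.card k ≤ a) :
    ∑ k ∈ (KT w S).filter (fun k => ∀ x ∈ k, x ≤ a), N k (a - Multiset.card k) +
      ∑ p ∈ (KT w S ×ˢ Finset.range (a + 2)).filter (GoodT a), (N p.1 p.2 - N p.1 (p.2 - 1)) ≤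
    ∑ k ∈ (KT w S).filter (fun k => 3 * Multiset.card k ≤ b ∧ ∀ x ∈ k, x ≤ a),
      N k (b - 3 * Multiset.card k) := by
  have hf : (KT w S).filter (fun k => 3 * Multiset.card k ≤ b ∧ ∀ x ∈ k, x ≤ a) =
      (KT w S).filter (fun k => ∀ x ∈ k, x ≤ a) := by
    apply Finset.filter_congr
    intro k hk
    have := (hc k hk).1
    exact ⟨fun h => h.2, fun h => ⟨by omega, h⟩⟩
  rw [hf, sum_pairs (KT w S) (Finset.range (a + 2)) (GoodT a) (fun k t => N k t - N k (t - 1))]
  have h1 : ∑ k ∈ KT w S, ∑ t ∈ (Finset.range (a + 2)).filter (fun t => GoodT a (k, t)),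
      (N k t - N k (t - 1)) = ∑ k ∈ (KT w S).filter (fun k => ∀ x ∈ k, x ≤ a),
        ∑ t ∈ Finset.Ioc (a - Multiset.card k) (a + 1), (N k t - N k (t - 1)) := by
    rw [Finset.sum_filter]
    apply Finset.sum_congr rfl
    intro k hk
    have h2 := (hc k hk).2
    split_ifs with h
    · apply Finset.sum_congr _ fun _ _ => rfl
      ext t
      rw [Finset.mem_filter, Finset.mem_range, Finset.mem_Ioc]
      unfold GoodT
      constructor
      · rintro ⟨h3, _, h4, h5⟩
        simp only at h4 h5
        omega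
      · rintro ⟨h3, h4⟩
        exact ⟨by omega, h, by simp only; omega, by simp only; omega⟩
    · apply Finset.sum_eq_zero
      intro t ht
      rw [Finset.mem_filter] at ht
      exact absurd ht.2.1 h
  rw [h1, ← Finset.sum_add_distrib]
  apply Finset.sum_le_sum
  intro k hk
  rw [Finset.mem_filter] at hk
  have h2 := hc k hk.1
  rw [← tel (hN k) (show a - Multiset.card k ≤ a + 1 by omega)]
  exact monotone_nat_of_le_succ (hN k) (by omega)

open scoped Classical in
/-- the upper side -/
lemma core_up (hN : ∀ k t, N k t ≤ N k (t + 1)) (hJ : J ≤ a)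
    (hc : ∀ k ∈ KT w S, Multiset.card k ≤ J) :
    ∑ k ∈ (KT w S).filter (fun k => Multiset.card k ≤ a ∧ ∀ x ∈ k, x ≤ b),
      N k (a - Multiset.card k) ≤
    ∑ k ∈ (KT w S).filter (fun k => ∀ x ∈ k, x ≤ a), N k (a - Multiset.card k) +
      (∑ k ∈ (KT w S).filter (fun k => Multiset.card k ≤ J), N k (J - Multiset.card k) +
      ∑ p ∈ (KT w S ×ˢ Finset.range (a + 2)).filter (BadT a (J + 1)),
        (N p.1 p.2 - N p.1 (p.2 - 1))) := by
  rw [sum_pairs (KT w S) (Finset.range (a + 2)) (BadT a (J + 1))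
    (fun k t => N k t - N k (t - 1))]
  have hf : (KT w S).filter (fun k => Multiset.card k ≤ J) = KT w S :=
    Finset.filter_true_of_mem hc
  rw [hf, ← Finset.sum_add_distrib, Finset.sum_filter, Finset.sum_filter,
    ← Finset.sum_add_distrib]
  apply Finset.sum_le_sum
  intro k hk
  have h1 := hc k hk
  by_cases h : ∀ x ∈ k, x ≤ a
  · rw [if_pos h]
    split_ifs
    · omega
    · omega
  · rw [if_neg h]
    split_ifs with h2
    · rw [zero_add, tel (hN k) (show J - Multiset.card k ≤ a - Multiset.card k by omega)]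
      apply Nat.add_le_add_left
      apply Finset.sum_le_sum_of_subset
      intro t ht
      rw [Finset.mem_Ioc] at ht
      rw [Finset.mem_filter, Finset.mem_range]
      push Not at h
      exact ⟨by omega, h, by simp only; omega, by simp only; omega, by simp only; omega⟩
    · exact Nat.zero_le _

open scoped Classical in
/-- the marks: from the letter `a` to the good states `({t}, a)` -/
lemma core_mark (hD : DisG S fun k t => N k t - N k (t - 1)) {t1 : ℕ} (hS : 1 ≤ S) (hSJ : S ≤ J)
    (ht1 : t1 + 3 ≤ a) (haw : a ≤ w) :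
    ∑ t ∈ Finset.Ioc J t1, (N {a} t - N {a} (t - 1)) ≤
      ∑ p ∈ (KT w S ×ˢ Finset.range (a + 2)).filter (GoodT a),
        (N p.1 p.2 - N p.1 (p.2 - 1)) := by
  calc ∑ t ∈ Finset.Ioc J t1, (N {a} t - N {a} (t - 1))
      ≤ ∑ t ∈ Finset.Ioc J t1, (N {t} a - N {t} (a - 1)) := by
        apply Finset.sum_le_sum
        intro t ht
        rw [Finset.mem_Ioc] at ht
        have h1 := hD 0 {t} a (a - t) t (by omega) (by omega) (Multiset.nodup_singleton t)
          (fun x hx => by
            rw [Multiset.mem_singleton] at hx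
            exact ⟨by omega, Multiset.notMem_zero _, by omega⟩)
          (by rw [Multiset.sum_singleton]; omega)
          (Or.inr ⟨by omega, by rw [Multiset.sum_singleton]⟩)
        rw [add_zero] at h1
        have h2 : t + (a - t) = a := by omega
        simp only [h2] at h1
        exact h1
    _ = ∑ p ∈ (Finset.Ioc J t1).image (fun t => (({t} : Multiset ℕ), a)),
        (N p.1 p.2 - N p.1 (p.2 - 1)) := by
        rw [Finset.sum_image]
        intro t _ t' _ h
        have h1 : (({t} : Multiset ℕ), a) = (({t'} : Multiset ℕ), a) := h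
        rw [Prod.mk.injEq, Multiset.singleton_inj] at h1
        exact h1.1
    _ ≤ _ := by
        apply Finset.sum_le_sum_of_subset
        intro p hp
        rw [Finset.mem_image] at hp
        obtain ⟨t, ht, rfl⟩ := hp
        rw [Finset.mem_Ioc] at ht
        rw [Finset.mem_filter, Finset.mem_product, Finset.mem_range, mem_KT hS]
        refine ⟨⟨⟨?_, ?_⟩, by simp only; omega⟩, ?_, ?_, ?_⟩
        · simp only [Multiset.sum_singleton]
          omega
        · intro x hx
          simp only [Multiset.mem_singleton] at hx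
          omega
        · intro x hx
          simp only [Multiset.mem_singleton] at hx
          omega
        · simp only [Multiset.card_singleton]
          omega
        · simp only
          omega

end

end Vale.Agent.P181.DG8
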