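import Vale.Agent.P181.DG8.Core
import Vale.Agent.P181.SZR1b.Defs
import Vale.Agent.P181.PL5.Br
import Vale.Agent.P181.SZ.Asm

set_option autoImplicit false

/-!
# P181, DG (D8): the assembly `AsmR`
-/

namespace Vale.Agent.P181.DG8

open MvPolynomial
open Vale.Agent.P181.T4 (HW ex low ex_of_lt ex_anti low_anti)
open Vale.Agent.P181.H280 (plethMult hwSpace)
open Vale.Agent.P181.H463 (gt)
open Vale.Agent.P181.H503 (gt_congr ex_low)
open Vale.Agent.P181.SZ
open Vale.Agent.P181.PL (PieS dn)
open Vale.Agent.P181.PL5 (gt_branch ex_val)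
open Vale.Agent.P181.DG

lemma dn_one {m : ℕ} (lam : Fin (m + 1) → ℕ) : dn lam 1 = ∑ i, tl lam i := sum_tl lam

lemma disG (hMono : MonoT) (hDis : DisT) {m S : ℕ} (hS : 4 ≤ S) (mu : Fin m → ℕ) :
    DisG S fun k t => NT m S mu k t - NT m S mu k (t - 1) := by
  intro rho A k D t ht hk hA hAx hsum hD
  obtain ⟨s, rfl⟩ : ∃ s, t = s + 1 := ⟨t - 1, by omega⟩
  have h1 := hDis m S mu rho A k D s hS hk hA hAx hsum hD
  have h2 := hMono m S mu (k ::ₘ rho) s (by omega)
  have h3 := hMono m S mu (A + rho) (s + D) (by omega)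
  have e1 : s + 1 - 1 = s := by omega
  have e2 : s + 1 + D - 1 = s + D := by omega
  have e3 : s + D + 1 = s + 1 + D := by omega
  simp only [e1, e2]
  rw [e3] at h3
  omega

open scoped Classical in
/-- the marked types -/
lemma markedR (hU : UpperS) (hP : PieS) (hM : MarkT) {m S a0 b0 w a : ℕ}
    {lam nu : Fin (m + 1) → ℕ} (hS : 4 ≤ S) (ha0S : a0 < S) (hSa : S ≤ a)
    (hw : ∑ i, tl lam i = w) (hw' : w = ∑ i, tl nu i + a)
    (hle : ∀ i : Fin m, tl nu i ≤ tl lam i)
    (hst : ∀ i : Fin m, ex (tl lam) ((i : ℕ) + 1) ≤ tl nu i) :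
    plethMult b0 a0 (m + 1) nu ≤ NT m S (tl lam) {a} (3 * b0) := by
  refine (hU b0 a0 m nu).trans ?_
  calc ∑ k ∈ (PT (∑ i, tl nu i)).filter (fun k => (∀ x ∈ k, x ≤ a0) ∧ ¬ LBt b0 k),
        nn m (tl nu) k
      ≤ ∑ k ∈ (PT (∑ i, tl nu i)).filter (fun k => (∀ x ∈ k, x ≤ a0) ∧ ¬ LBt b0 k),
        nn m (tl lam) (a ::ₘ k) := by
        apply Finset.sum_le_sum
        intro k hk
        rw [Finset.mem_filter] at hk
        refine hP m a (tl nu) (tl lam) k (by omega) (fun hmem => ?_) hle hst ?_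
        · have := hk.2.1 a hmem
          omega
        · rw [hw, hw']
    _ ≤ ∑ k ∈ (PT (∑ i, tl nu i)).filter (fun k => (∀ y ∈ k, y < S) ∧
        3 * Multiset.card k ≤ 3 * b0), nn m (tl lam) (a ::ₘ k) := by
        apply Finset.sum_le_sum_of_subset
        intro k hk
        rw [Finset.mem_filter] at hk ⊢
        obtain ⟨h1, h3, h4⟩ := hk
        have h5 : Multiset.card k ≤ b0 := by
          by_contra h
          exact h4 (Or.inl (by omega))
        refine ⟨h1, fun y hy => ?_, by omega⟩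
        have := h3 y hy
        omega
    _ ≤ _ := hM m S a (3 * b0) (∑ i, tl nu i) (tl lam) hS hSa (by rw [hw, hw'])

open scoped Classical in
/-- **(D8)** -/
theorem asmR (hMono : MonoT) (hUp : UpT) (hLow : LowT) (hDis : DisT) (hFew : FewT)
    (hM : MarkT) (hFl : FlowT) (hU : UpperS) (hUA : UpperA) (hLA : LowerA) (hP : PieS) :
    AsmR := by
  intro a b n R X Z K w a0 b0 lam nu hlam hsum hpos hR1 hRn hw hZ1 hZ2 hK hKX hXZ hwX hKa hab
    hZa ha0 ha0a hbig hb0 hle hst hwnu hfinal
  obtain ⟨m, rfl⟩ : ∃ m, n = m + 1 := ⟨n - 1, by omega⟩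
  have hw' : ∑ i, tl lam i = w := by rw [hw, dn_one]
  rw [dn_one] at hwnu
  obtain ⟨S, hS⟩ : ∃ S, S = (Z + 1) * X := ⟨_, rfl⟩
  have hX1 : 1 ≤ X := by omega
  have hZ0 : 1 ≤ Z := by omega
  have hS1 : Z + 1 ≤ S := by
    rw [hS]
    exact Nat.le_mul_of_pos_right _ (by omega)
  have hSX : X ≤ S := by
    rw [hS]
    exact Nat.le_mul_of_pos_left _ (by omega)
  have hKS : S ≤ K * S := Nat.le_mul_of_pos_left _ (by omega)
  have hKa' : 100 * (K * S) ≤ a := by
    rw [hS]
    calc 100 * (K * ((Z + 1) * X)) = 100 * K * ((Z + 1) * X) := by ring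
      _ ≤ a := hKa
  have haw : a ≤ w := by omega
  have ha1 : 1 ≤ a := by omega
  have hS4 : 4 ≤ S := by omega
  -- the size of the contents
  have hcard : ∀ k ∈ KT w S, 3 * Multiset.card k + 1 ≤ Z := by
    intro k hk
    have h1 := card_KT (by omega) hk
    have h2 : Multiset.card k * X < Z + 1 := by
      by_contra h
      have h3 : (Z + 1) * (Z + 1) ≤ (Z + 1) * (Multiset.card k * X) :=
        Nat.mul_le_mul_left _ (by omega)
      have h4 : (Z + 1) * (Multiset.card k * X) = Multiset.card k * S := by rw [hS]; ring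
      have h5 : (Z + 1) ^ 2 = (Z + 1) * (Z + 1) := sq _
      omega
    have h3 : Multiset.card k * 32 ≤ Multiset.card k * X := Nat.mul_le_mul_left _ (by omega)
    omega
  -- `J`
  have e1 : Z * X ^ 2 = Z * X * X := by ring
  have e2 : Z * X * (16 * K + 16) ≤ Z * X * X := Nat.mul_le_mul_left _ hKX
  have e3 : Z * X * (16 * K + 16) = 16 * (K * (Z * X)) + 16 * (Z * X) := by ring
  have e4 : K * S = K * (Z * X) + K * X := by rw [hS]; ring
  have e4' : S = Z * X + X := by rw [hS]; ring
  have e5 : K * X ≤ K * (Z * X) := Nat.mul_le_mul_left _ (Nat.le_mul_of_pos_left _ hZ0)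
  have e5' : X ≤ Z * X := Nat.le_mul_of_pos_left _ hZ0
  have e6 : 1 ≤ Z * X := Nat.mul_pos hZ0 hX1
  have e7 : (2 * (3 * K) + 3) * S = 6 * (K * S) + 3 * S := by ring
  obtain ⟨J, hJ, hJ1, hJ2⟩ : ∃ J, ((m + 1 ≤ Z * X ^ 2 → J = Z * X ^ 2) ∧
      (¬ m + 1 ≤ Z * X ^ 2 → J + 1 = Z * X ^ 2)) ∧ J ≤ Z * X ^ 2 ∧ Z * X ^ 2 ≤ J + 1 := by
    by_cases h : m + 1 ≤ Z * X ^ 2
    · exact ⟨Z * X ^ 2, ⟨fun _ => rfl, fun h' => absurd h h'⟩, le_rfl, by omega⟩
    · exact ⟨Z * X ^ 2 - 1, ⟨fun h' => absurd h' h, fun _ => by omega⟩, by omega, by omega⟩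
  have hSJ : S ≤ J := by omega
  have hZJ : Z ≤ J := by omega
  -- the functions
  obtain ⟨N, hN⟩ : ∃ N : Multiset ℕ → ℕ → ℕ, N = NT m S (tl lam) := ⟨_, rfl⟩
  have hNm : ∀ k t, N k t ≤ N k (t + 1) := fun k t => by
    rw [hN]
    exact hMono m S (tl lam) k t (by omega)
  have hDG : DisG S fun k t => N k t - N k (t - 1) := by
    rw [hN]
    exact disG hMono hDis hS4 (tl lam)
  have hup := (hUA a b m lam).trans (hUp a b m S (tl lam) (by omega))
  have hlow := (hLow a b m S (tl lam) (by omega) (by omega)).trans (hLA a b m lam hsum)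
  have hfew := hFew m S J (tl lam) (by omega)
  rw [hw', ← hN] at hup hlow hfew
  have hc1 : ∀ k ∈ KT w S, a + 1 + 3 * Multiset.card k ≤ b ∧ Multiset.card k ≤ a := by
    intro k hk
    have := hcard k hk
    omega
  have hc2 : ∀ k ∈ KT w S, Multiset.card k ≤ J := by
    intro k hk
    have := hcard k hk
    omega
  have h1 := core_low (b := b) hNm hc1
  have h2 := core_up (b := b) hNm (show J ≤ a by omega) hc2
  have h3 := hFl (fun k t => N k t - N k (t - 1)) a (J + 1) S (3 * K) X w hDG (by omega) hS4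
    (by omega) (by
      rw [hS, mul_pow]
      exact Nat.mul_le_mul_right _ hZ2.le) (by
      have f1 : X ^ (3 * K) = (X ^ K) ^ 3 := by rw [mul_comm, pow_mul]
      have f2 : (4 * w) ^ 3 ≤ (X ^ K) ^ 3 := Nat.pow_le_pow_left hwX 3
      have f3 : (w + 1) * (a + 2) ≤ (2 * w) * (3 * w) := Nat.mul_le_mul (by omega) (by omega)
      have f4 : w * w ≤ w * w * w := Nat.le_mul_of_pos_right _ (by omega)
      have f5 : (4 * w) ^ 3 = 64 * (w * w * w) := by ring
      have f6 : (2 * w) * (3 * w) = 6 * (w * w) := by ring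
      rw [f1]
      omega) (by omega) (by omega)
  set Good := ∑ p ∈ (KT w S ×ˢ Finset.range (a + 2)).filter (GoodT a),
    (N p.1 p.2 - N p.1 (p.2 - 1)) with hGood
  set Bad := ∑ p ∈ (KT w S ×ˢ Finset.range (a + 2)).filter (BadT a (J + 1)),
    (N p.1 p.2 - N p.1 (p.2 - 1)) with hBad
  set Few := ∑ k ∈ (KT w S).filter (fun k => Multiset.card k ≤ J), N k (J - Multiset.card k)
    with hFewdef
  set A0 := ∑ k ∈ (KT w S).filter (fun k => ∀ x ∈ k, x ≤ a), N k (a - Multiset.card k)
    with hA0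
  have h3' : 3 * Bad ≤ Good := h3
  -- the few letters against the good states
  have hfg : 2 * Few ≤ Good := by
    by_cases hnJ : m + 1 ≤ Z * X ^ 2
    · have hJe := hJ.1 hnJ
      have hbig' := hfinal hnJ
      have hmark := markedR (b0 := b0) hU hP hM (m := m) (S := S) (a0 := a0) (w := w) (a := a)
        (lam := lam) (nu := nu) hS4 (by
          by_contra h
          have g1 : S * S ≤ a0 * (a0 + 2) := Nat.mul_le_mul (by omega) (by omega)
          have g2 : (Z + 1) * (Z + 1) ≤ S * S := Nat.mul_le_mul hS1 hS1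
          have g3 : (Z + 1) ^ 2 = (Z + 1) * (Z + 1) := sq _
          omega) (by omega) hw' hwnu
        (fun i => hle i.succ (by simp))
        (fun i => by
          have h1 := hst i.succ (by simp)
          rw [Fin.val_succ] at h1
          rw [ex_tl]
          exact h1)
      rw [← hN] at hmark
      have hmk : N {a} (3 * b0) ≤ N {a} (J - 1) + Good := by
        by_cases hJb : J - 1 ≤ 3 * b0
        · have g1 := tel (hNm {a}) hJb
          have g2 := core_mark (J := J - 1) (w := w) hDG (show 1 ≤ S by omega) (by omega)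
            (show 3 * b0 + 3 ≤ a by omega) haw
          omega
        · have g1 : N {a} (3 * b0) ≤ N {a} (J - 1) :=
            monotone_nat_of_le_succ (hNm {a}) (by omega)
          omega
      have hsf : N {a} (J - 1) ≤ Few := by
        have g1 : ({a} : Multiset ℕ) ∈ (KT w S).filter (fun k => Multiset.card k ≤ J) := by
          rw [Finset.mem_filter, mem_KT (by omega)]
          refine ⟨⟨?_, ?_⟩, ?_⟩
          · rw [Multiset.sum_singleton]
            exact haw
          · intro x hx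
            rw [Multiset.mem_singleton] at hx
            omega
          · rw [Multiset.card_singleton]
            omega
        have g2 := Finset.single_le_sum (f := fun k : Multiset ℕ => N k (J - Multiset.card k))
          (fun _ _ => Nat.zero_le _) g1
        simp only [Multiset.card_singleton] at g2
        exact g2
      have hbr : gt (m + 1 - (R + 1)) (Z * X ^ 2) (low (R + 1) lam) ≤
          gt (m + 1 - R) (Z * X ^ 2 + 1) (low R nu) := by
        apply gt_branch
        · intro i hi hin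
          have h1 := hst ⟨i, hin⟩ (by simp; omega)
          rw [← ex_val nu ⟨i, hin⟩] at h1
          exact h1
        · intro i hi hin
          have h1 := hle ⟨i, hin⟩ (by simp; omega)
          rw [← ex_val nu ⟨i, hin⟩, ← ex_val lam ⟨i, hin⟩] at h1
          exact h1
      have hcut := hw_cut (J := J) (show R ≤ m by omega) (tl lam) (tl_anti hlam) w (fun i => by
        rw [← hw']
        exact Finset.single_le_sum (f := tl lam) (fun _ _ => Nat.zero_le _)
          (Finset.mem_univ i))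
      have hgt : gt (m - R) J (low R (tl lam)) =
          gt (m + 1 - (R + 1)) (Z * X ^ 2) (low (R + 1) lam) := by
        rw [hJe]
        apply gt_congr (by omega)
        intro i
        rw [ex_low, ex_low, ex_tl]
        congr 1
        omega
      rw [hgt] at hcut
      have hF1 : Few ≤ (w + 1) ^ (R * J) * gt (m + 1 - R) (Z * X ^ 2 + 1) (low R nu) :=
        hfew.trans (hcut.trans (Nat.mul_le_mul_left _ hbr))
      have hpw : 2 * (w + 1) ^ (R * J) ≤ (w + 1) ^ ((R + 1) * (Z * X ^ 2)) := by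
        rw [← hJe, add_mul, one_mul, pow_add, mul_comm]
        apply Nat.mul_le_mul_left
        calc 2 ≤ w + 1 := by omega
          _ ≤ (w + 1) ^ J := Nat.le_self_pow (by omega) _
      have hF2 : 4 * Few ≤ 2 * ((w + 1) ^ ((R + 1) * (Z * X ^ 2)) *
          gt (m + 1 - R) (Z * X ^ 2 + 1) (low R nu)) := by
        calc 4 * Few ≤ 4 * ((w + 1) ^ (R * J) * gt (m + 1 - R) (Z * X ^ 2 + 1) (low R nu)) :=
              Nat.mul_le_mul_left _ hF1
          _ = 2 * (2 * (w + 1) ^ (R * J) * gt (m + 1 - R) (Z * X ^ 2 + 1) (low R nu)) := by ring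
          _ ≤ _ := Nat.mul_le_mul_left _ (Nat.mul_le_mul_right _ hpw)
      omega
    · have hpos : ∀ i, 0 < lam i := hpos.resolve_right hnJ
      have hJe := hJ.2 hnJ
      rw [hw_zero (by omega) (tl lam) (tl_anti hlam) (fun i => hpos _)] at hfew
      omega
  have hup' : plethMult a b (m + 1) lam ≤ A0 + (Few + Bad) := le_trans (by convert hup) h2
  have hlow' : A0 + Good ≤ plethMult b a (m + 1) lam := le_trans h1 (by convert hlow)
  omega

end Vale.Agent.P181.DG8
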